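import Mathlib

/-!
Numerical row (D) of the cylinder gates: choice of the parameters.
-/

namespace Vale.Agent.P336.Cyl.H236

theorem numerics : ∃ K : ℕ, ∀ N p S t : ℕ, 0 < N → 2 ≤ p → 1 ≤ t →
    K * p * 2 ^ p * N * t ≤ S ^ 2 →
    p * S ≤ N → ∀ q : ℕ, q * q ≤ N → N < (q + 1) * (q + 1) → ∃ ρ ℓ r a : ℕ, p ≤ q ∧ ρ ≤ q ∧
      ℓ = ρ * q ∧ r = p * ℓ ∧ 0 < ℓ ∧ 2 * q + r + r ≤ N ∧ 2 ^ p * (t + 3) + p ≤ a ∧ a ≤ ℓ ∧
      (N / ℓ + 1) * a ≤ S - (2 * q + r) := by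
  refine ⟨4096, ?_⟩
  intro N p S t hN hp ht hK hpS q hq1 hq2
  have hP : p ≤ 2 ^ p := le_of_lt Nat.lt_two_pow_self
  set P := 2 ^ p with hPdef
  obtain ⟨A, hA⟩ : ∃ A, A = p * P * t := ⟨_, rfl⟩
  have hpA : p * p ≤ A := by
    rw [hA]
    calc p * p ≤ p * P := Nat.mul_le_mul_left _ hP
      _ = p * P * 1 := by ring
      _ ≤ p * P * t := Nat.mul_le_mul_left _ ht
  have hA0 : 0 < A := lt_of_lt_of_le (by positivity) hpA
  have hAN : 4096 * A * N ≤ S * S := by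
    calc 4096 * A * N = 4096 * p * P * N * t := by rw [hA]; ring
      _ ≤ S ^ 2 := hK
      _ = S * S := by ring
  have hS0 : 0 < S := by
    rcases Nat.eq_zero_or_pos S with h | h
    · subst h
      have : 0 < 4096 * A * N := by positivity
      omega
    · exact h
  have F1 : 4096 * A * p ≤ S := by
    have h1 : 4096 * A * p * S ≤ S * S := by
      calc 4096 * A * p * S = 4096 * A * (p * S) := by ring
        _ ≤ 4096 * A * N := Nat.mul_le_mul_left _ hpS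
        _ ≤ S * S := hAN
    exact Nat.le_of_mul_le_mul_right h1 hS0
  have F2 : 64 * p * q ≤ S := by
    have h1 : (64 * p * q) * (64 * p * q) ≤ S * S := by
      calc (64 * p * q) * (64 * p * q) = 4096 * (p * p) * (q * q) := by ring
        _ ≤ 4096 * A * N := Nat.mul_le_mul (Nat.mul_le_mul_left _ hpA) hq1
        _ ≤ S * S := hAN
    exact Nat.mul_self_le_mul_self_iff.mp h1
  have hSN : S ≤ N := by
    calc S = 1 * S := by ring
      _ ≤ p * S := Nat.mul_le_mul_right _ (by omega)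
      _ ≤ N := hpS
  have hpq : p ≤ q := by
    by_contra h
    push Not at h
    have h1 : (q + 1) * (q + 1) ≤ p * p := Nat.mul_le_mul h h
    have h2 : 4096 * A ≤ 4096 * A * p := Nat.le_mul_of_pos_right _ (by omega)
    omega
  have hq0 : 0 < q := by omega
  have hd0 : 0 < 4 * p * q := by positivity
  obtain ⟨ρ, hρ⟩ : ∃ ρ, ρ = S / (4 * p * q) := ⟨_, rfl⟩
  have hρ1 : ρ * (4 * p * q) ≤ S := by rw [hρ]; exact Nat.div_mul_le_self _ _
  have hρ2 : S < (ρ + 1) * (4 * p * q) := by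
    rw [hρ]
    have := Nat.lt_div_mul_add hd0 (a := S)
    calc S < S / (4 * p * q) * (4 * p * q) + 4 * p * q := this
      _ = (S / (4 * p * q) + 1) * (4 * p * q) := by ring
  have hρpos : 0 < ρ := by
    rcases Nat.eq_zero_or_pos ρ with h | h
    · rw [h] at hρ2
      nlinarith
    · exact h
  have hρq : ρ ≤ q := by
    by_contra h
    push Not at h
    have h1 : (q + 1) * (4 * p * q) ≤ ρ * (4 * p * q) := Nat.mul_le_mul_right _ h
    have h2 : q + 1 ≤ 4 * p * q := by nlinarith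
    have h3 : (q + 1) * (q + 1) ≤ (q + 1) * (4 * p * q) := Nat.mul_le_mul_left _ h2
    omega
  obtain ⟨ℓ, hℓ⟩ : ∃ ℓ, ℓ = ρ * q := ⟨_, rfl⟩
  obtain ⟨r, hr⟩ : ∃ r, r = p * ℓ := ⟨_, rfl⟩
  have hℓ0 : 0 < ℓ := by rw [hℓ]; positivity
  have hr1 : 4 * r ≤ S := by
    calc 4 * r = ρ * (4 * p * q) := by rw [hr, hℓ]; ring
      _ ≤ S := hρ1
  have hr2 : S < 4 * r + 4 * p * q := by
    calc S < (ρ + 1) * (4 * p * q) := hρ2
      _ = 4 * r + 4 * p * q := by rw [hr, hℓ]; ring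
  have hr3 : 15 * S ≤ 64 * r := by
    have : 16 * (4 * p * q) = 64 * p * q := by ring
    omega
  have hq128 : 128 * q ≤ S := by
    calc 128 * q = 64 * 2 * q := by ring
      _ ≤ 64 * p * q := Nat.mul_le_mul_right _ (Nat.mul_le_mul_left _ hp)
      _ ≤ S := F2
  have hP0 : 0 < P := by rw [hPdef]; positivity
  obtain ⟨a, ha⟩ : ∃ a, a = P * (t + 3) + p := ⟨_, rfl⟩
  have ha1 : a ≤ 5 * (P * t) := by
    rw [ha]
    have h1 : P ≤ P * t := Nat.le_mul_of_pos_right _ ht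
    have h2 : P * (t + 3) = P * t + 3 * P := by ring
    omega
  have hpa : p * a ≤ 5 * A := by
    calc p * a ≤ p * (5 * (P * t)) := Nat.mul_le_mul_left _ ha1
      _ = 5 * A := by rw [hA]; ring
  have hal : a ≤ ℓ := by
    have h1 : p * a ≤ p * ℓ := by
      have h2 : 4096 * A ≤ 4096 * A * p := Nat.le_mul_of_pos_right _ (by omega)
      rw [← hr]
      omega
    exact Nat.le_of_mul_le_mul_left h1 (by omega)
  obtain ⟨m, hm⟩ : ∃ m, m = N / ℓ := ⟨_, rfl⟩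
  have hm1 : m * ℓ ≤ N := by rw [hm]; exact Nat.div_mul_le_self _ _
  have hℓr : ℓ ≤ r := by
    rw [hr]
    exact Nat.le_mul_of_pos_left _ (by omega)
  have hm2 : (m + 1) * ℓ ≤ 2 * N := by
    have : (m + 1) * ℓ = m * ℓ + ℓ := by ring
    omega
  have hfin : 2 * ((m + 1) * a) ≤ S := by
    have h1 : 15 * S * ((m + 1) * a) ≤ 64 * r * ((m + 1) * a) := Nat.mul_le_mul_right _ hr3
    have h2 : 64 * r * ((m + 1) * a) = 64 * ((m + 1) * ℓ) * (p * a) := by rw [hr]; ring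
    have h3 : 64 * ((m + 1) * ℓ) * (p * a) ≤ 64 * (2 * N) * (5 * A) :=
      Nat.mul_le_mul (Nat.mul_le_mul_left _ hm2) hpa
    have h4 : 64 * (2 * N) * (5 * A) = 640 * (A * N) := by ring
    have h5 : 4096 * A * N = 4096 * (A * N) := by ring
    have h6 : 15 * S * ((m + 1) * a) ≤ S * S := by omega
    have h7 : S * (15 * ((m + 1) * a)) ≤ S * S := by
      calc S * (15 * ((m + 1) * a)) = 15 * S * ((m + 1) * a) := by ring
        _ ≤ S * S := h6
    have h8 : 15 * ((m + 1) * a) ≤ S := Nat.le_of_mul_le_mul_left h7 hS0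
    omega
  refine ⟨ρ, ℓ, r, a, hpq, hρq, hℓ, hr, hℓ0, ?_, ?_, hal, ?_⟩
  · omega
  · rw [ha]
  · rw [← hm]
    omega

end Vale.Agent.P336.Cyl.H236
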