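import Mathlib

/-!
Row (W3): the numerical inequality for the stronger cylinder gates.
-/

namespace Vale.Agent.P336.Cyl.H236

open Finset

section Weights

variable {V : Type*} [Fintype V]

theorem sum_pow_card (q : ℝ) : ∑ A : Finset V, q ^ A.card = (1 + q) ^ Fintype.card V := by
  rw [← Finset.powerset_univ, ← Finset.card_univ, ← Finset.prod_const, Finset.prod_one_add]
  refine Finset.sum_congr rfl fun A _ => ?_
  rw [Finset.prod_const]

theorem sum_pow_inter [DecidableEq V] {q c : ℝ} (B : Finset V) :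
    ∑ A : Finset V, q ^ A.card * c ^ (B ∩ A).card =
      (1 + q * c) ^ B.card * (1 + q) ^ (Fintype.card V - B.card) := by
  have h1 : ∏ v : V, (1 + q * if v ∈ B then c else 1) =
      (1 + q * c) ^ B.card * (1 + q) ^ (Fintype.card V - B.card) := by
    rw [← Finset.card_compl, ← Finset.prod_const, ← Finset.prod_const,
      ← Finset.prod_mul_prod_compl B]
    congr 1
    · exact Finset.prod_congr rfl fun v hv => by rw [if_pos hv]
    · exact Finset.prod_congr rfl fun v hv => by rw [if_neg (Finset.mem_compl.1 hv), mul_one]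
  rw [← h1, Finset.prod_one_add, Finset.powerset_univ]
  refine Finset.sum_congr rfl fun A _ => ?_
  rw [Finset.prod_mul_distrib, Finset.prod_const, Finset.prod_ite_mem, Finset.prod_const,
    Finset.inter_comm]

omit [Fintype V] in
theorem card_small_le {y : ℝ} (hy0 : 0 < y) (hy1 : y ≤ 1) (f : ℕ) (A : Finset V) :
    ((A.powerset.filter fun F => F.card < f).card : ℝ) ≤ y⁻¹ ^ f * (1 + y) ^ A.card := by
  have h1 : (1 + y) ^ A.card = ∑ F ∈ A.powerset, y ^ F.card := by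
    rw [← Finset.prod_const, Finset.prod_one_add]
    refine Finset.sum_congr rfl fun F _ => ?_
    rw [Finset.prod_const]
  rw [h1, Finset.mul_sum, Finset.card_eq_sum_ones, Nat.cast_sum, Finset.sum_filter]
  refine Finset.sum_le_sum fun F _ => ?_
  split_ifs with hF
  · rw [Nat.cast_one, inv_pow]
    have h2 : y ^ f ≤ y ^ F.card := pow_le_pow_of_le_one hy0.le hy1 hF.le
    have h3 : (0 : ℝ) < y ^ f := by positivity
    calc (1 : ℝ) = (y ^ f)⁻¹ * y ^ f := (inv_mul_cancel₀ h3.ne').symm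
      _ ≤ (y ^ f)⁻¹ * y ^ F.card := mul_le_mul_of_nonneg_left h2 (by positivity)
  · positivity

end Weights

theorem card_row {p a : ℕ} (i : Fin p) :
    ((univ : Finset (Fin a)).image fun k => (i, k)).card = a := by
  rw [Finset.card_image_of_injective _ (fun x y h => (Prod.mk.inj h).2), Finset.card_univ,
    Fintype.card_fin]

theorem card_row_inter {p a : ℕ} (i : Fin p) (A : Finset (Fin p × Fin a)) :
    (((univ : Finset (Fin a)).image fun k => (i, k)) ∩ A).card =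
      (univ.filter fun k : Fin a => (i, k) ∈ A).card := by
  rw [← Finset.card_image_of_injective (univ.filter fun k : Fin a => (i, k) ∈ A)
    (f := fun k => (i, k)) (fun x y h => (Prod.mk.inj h).2)]
  congr 1
  ext ⟨j, k⟩
  simp only [mem_inter, mem_image, mem_univ, true_and, mem_filter]
  constructor
  · rintro ⟨⟨k', hk'⟩, hA⟩
    obtain ⟨rfl, rfl⟩ := Prod.mk.inj hk'
    exact ⟨k', hA, rfl⟩
  · rintro ⟨k', hA, hk'⟩
    obtain ⟨rfl, rfl⟩ := Prod.mk.inj hk'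
    exact ⟨⟨k', rfl⟩, hA⟩


theorem bound_two {p a f w : ℕ} {q X y B : ℝ} (hq0 : 0 < q) (hX : X = p * (a * q)) (hX0 : 0 < X)
    (hy : y = f / X) (hy0 : 0 < y) (hB : y⁻¹ ≤ B) (hw : B * (1 / 2 : ℝ) ^ w * 3 ≤ 1 / 2) :
    y⁻¹ ^ f * (1 / 2 : ℝ) ^ (w * f) * (1 + q * (1 + y)) ^ (p * a) ≤
      (1 + q) ^ (p * a) * (1 / 2) ^ f := by
  have h2 : 1 + q * (1 + y) ≤ (1 + q) * Real.exp (q * y) := by
    have h3 := Real.add_one_le_exp (q * y)
    have h4 : 0 ≤ q * q * y := by positivity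
    calc 1 + q * (1 + y) ≤ (1 + q) * (q * y + 1) := by nlinarith
      _ ≤ (1 + q) * Real.exp (q * y) := mul_le_mul_of_nonneg_left h3 (by positivity)
  have hexp : Real.exp (q * y) ^ (p * a) = Real.exp 1 ^ f := by
    rw [← Real.exp_nat_mul, ← Real.exp_nat_mul]
    congr 1
    rw [hy]
    push_cast
    have : (p : ℝ) * a * (q * (f / X)) = (p * (a * q)) / X * f := by ring
    rw [this, ← hX, div_self hX0.ne']
    ring
  have h1 : (1 + q * (1 + y)) ^ (p * a) ≤ (1 + q) ^ (p * a) * 3 ^ f := by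
    calc (1 + q * (1 + y)) ^ (p * a) ≤ ((1 + q) * Real.exp (q * y)) ^ (p * a) :=
          pow_le_pow_left₀ (by positivity) h2 _
      _ = (1 + q) ^ (p * a) * Real.exp (q * y) ^ (p * a) := mul_pow _ _ _
      _ = (1 + q) ^ (p * a) * Real.exp 1 ^ f := by rw [hexp]
      _ ≤ (1 + q) ^ (p * a) * 3 ^ f := by
          refine mul_le_mul_of_nonneg_left ?_ (by positivity)
          refine pow_le_pow_left₀ (by positivity) ?_ _
          have := Real.exp_one_lt_d9
          linarith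
  have h5 : y⁻¹ * (1 / 2 : ℝ) ^ w * 3 ≤ 1 / 2 := by
    have h11 : (0 : ℝ) ≤ (1 / 2 : ℝ) ^ w := by positivity
    have := mul_le_mul_of_nonneg_right hB h11
    linarith
  have h12 : 0 ≤ y⁻¹ * (1 / 2 : ℝ) ^ w * 3 := by positivity
  calc y⁻¹ ^ f * (1 / 2 : ℝ) ^ (w * f) * (1 + q * (1 + y)) ^ (p * a)
      ≤ y⁻¹ ^ f * (1 / 2 : ℝ) ^ (w * f) * ((1 + q) ^ (p * a) * 3 ^ f) :=
        mul_le_mul_of_nonneg_left h1 (by positivity)
    _ = (1 + q) ^ (p * a) * (y⁻¹ * (1 / 2 : ℝ) ^ w * 3) ^ f := by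
        rw [mul_pow, mul_pow, ← pow_mul]; ring
    _ ≤ (1 + q) ^ (p * a) * (1 / 2) ^ f :=
        mul_le_mul_of_nonneg_left (pow_le_pow_left₀ h12 h5 _) (by positivity)

theorem bound_w {p P w : ℕ} (hPp : p ≤ P) (hP : P = 2 ^ p) (hw : w = 3 * p + 15) :
    4096 * ((p : ℝ) * p * P) * (1 / 2 : ℝ) ^ w * 3 ≤ 1 / 2 := by
  have hPp' : (p : ℝ) ≤ P := by exact_mod_cast hPp
  have hPR : (P : ℝ) = 2 ^ p := by rw [hP]; push_cast; rfl
  have h7 : (p : ℝ) * p * P ≤ P * P * P := by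
    refine mul_le_mul_of_nonneg_right ?_ (by positivity)
    exact mul_le_mul hPp' hPp' (by positivity) (by positivity)
  have h8 : (P : ℝ) * P * P = 2 ^ (3 * p) := by
    rw [hPR]; ring
  rw [h8] at h7
  have h9 : (1 / 2 : ℝ) ^ w = (1 / 2) ^ (3 * p) * (1 / 2) ^ 15 := by rw [hw, pow_add]
  have h10 : (2 : ℝ) ^ (3 * p) * (1 / 2) ^ (3 * p) = 1 := by
    rw [← mul_pow]; norm_num
  have h11 : (0 : ℝ) ≤ (1 / 2 : ℝ) ^ w := by positivity
  calc 4096 * ((p : ℝ) * p * P) * (1 / 2 : ℝ) ^ w * 3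
      ≤ 4096 * (2 : ℝ) ^ (3 * p) * (1 / 2 : ℝ) ^ w * 3 := by
        have := mul_le_mul_of_nonneg_right h7 h11
        linarith
    _ = 4096 * 3 * (1 / 2) ^ 15 * ((2 : ℝ) ^ (3 * p) * (1 / 2) ^ (3 * p)) := by
        rw [h9]; ring
    _ = 4096 * 3 * (1 / 2) ^ 15 := by rw [h10]; ring
    _ ≤ 1 / 2 := by norm_num

theorem bound_nat {p t P T f w : ℕ} (hp : 2 ≤ p) (ht : 1 ≤ t) (hP1 : 1 ≤ P)
    (hT : T = P * (w * f) + p + f) (hf : f = t + 10) (hw : w = 3 * p + 15) :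
    p + T + f ≤ 1024 * p * P * t := by
  rw [hT, hf, hw]
  have e1 : (3 * p + 15) * (t + 10) ≤ (11 * p) * (11 * t) := Nat.mul_le_mul (by omega) (by omega)
  have e2 : P * ((3 * p + 15) * (t + 10)) ≤ P * ((11 * p) * (11 * t)) :=
    Nat.mul_le_mul_left _ e1
  have e3 : P * ((11 * p) * (11 * t)) = 121 * (p * P * t) := by ring
  have e4 : p ≤ p * P * t := by
    calc p = p * 1 * 1 := by ring
      _ ≤ p * P * t := Nat.mul_le_mul (Nat.mul_le_mul_left _ hP1) ht
  have e5 : t ≤ p * P * t := by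
    calc t = 1 * 1 * t := by ring
      _ ≤ p * P * t := Nat.mul_le_mul_right _ (Nat.mul_le_mul (by omega) hP1)
  have e6 : 1024 * p * P * t = 1024 * (p * P * t) := by ring
  omega

theorem bound_three {p a f t P T : ℕ} {q : ℝ} (hp : 2 ≤ p) (hq0 : 0 < q) (hq1 : q ≤ 1 / 2)
    (hPp : p ≤ P) (hP : P = 2 ^ p) (haq : (a : ℝ) * q = 4096 * p * P * t)
    (hTM : p + T + f ≤ 1024 * p * P * t) :
    (p : ℝ) * (2 ^ T * ((1 + q * (1 / 2)) ^ a * (1 + q) ^ (p * a - a))) ≤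
      (1 + q) ^ (p * a) * (1 / 2) ^ f := by
  have hPp' : (p : ℝ) ≤ P := by exact_mod_cast hPp
  have hPR : (P : ℝ) = 2 ^ p := by rw [hP]; push_cast; rfl
  have h1 : 1 + q * (1 / 2) ≤ (1 + q) * Real.exp (-(q / 3)) := by
    have h2 := Real.add_one_le_exp (-(q / 3))
    calc 1 + q * (1 / 2) ≤ (1 + q) * (-(q / 3) + 1) := by nlinarith
      _ ≤ (1 + q) * Real.exp (-(q / 3)) := mul_le_mul_of_nonneg_left h2 (by positivity)
  have hexp : Real.exp (-(q / 3)) ^ a ≤ (1 / 2) ^ (1024 * p * P * t) := by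
    rw [← Real.exp_nat_mul]
    have h4 : (a : ℝ) * -(q / 3) ≤ ((1024 * p * P * t : ℕ) : ℝ) * (-1) := by
      have h5 : (a : ℝ) * -(q / 3) = -(a * q) / 3 := by ring
      rw [h5, haq]
      push_cast
      have : (0 : ℝ) ≤ p * P * t := by positivity
      nlinarith
    calc Real.exp ((a : ℝ) * -(q / 3)) ≤
          Real.exp (((1024 * p * P * t : ℕ) : ℝ) * (-1)) := Real.exp_le_exp.2 h4
      _ = Real.exp (-1) ^ (1024 * p * P * t) := Real.exp_nat_mul _ _
      _ ≤ (1 / 2) ^ (1024 * p * P * t) := by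
          refine pow_le_pow_left₀ (by positivity) ?_ _
          rw [Real.exp_neg, one_div]
          refine inv_anti₀ (by norm_num) ?_
          have := Real.exp_one_gt_d9
          linarith
  have h3 : (1 + q * (1 / 2)) ^ a ≤ (1 + q) ^ a * (1 / 2) ^ (1024 * p * P * t) := by
    calc (1 + q * (1 / 2)) ^ a ≤ ((1 + q) * Real.exp (-(q / 3))) ^ a :=
          pow_le_pow_left₀ (by positivity) h1 _
      _ = (1 + q) ^ a * Real.exp (-(q / 3)) ^ a := mul_pow _ _ _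
      _ ≤ (1 + q) ^ a * (1 / 2) ^ (1024 * p * P * t) :=
          mul_le_mul_of_nonneg_left hexp (by positivity)
  have h6 : (1 / 2 : ℝ) ^ (1024 * p * P * t) ≤ (1 / 2) ^ (p + T + f) :=
    pow_le_pow_of_le_one (by norm_num) (by norm_num) hTM
  have h7 : a ≤ p * a := Nat.le_mul_of_pos_left _ (by omega)
  have h8 : (1 + q) ^ (p * a) = (1 + q) ^ a * (1 + q) ^ (p * a - a) := by
    rw [← pow_add]; congr 1; omega
  have h9 : (p : ℝ) ≤ 2 ^ p := by rw [← hPR]; exact hPp'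
  have h10 : (2 : ℝ) ^ p * (1 / 2) ^ p = 1 := by rw [← mul_pow]; norm_num
  have h11 : (2 : ℝ) ^ T * (1 / 2) ^ T = 1 := by rw [← mul_pow]; norm_num
  calc (p : ℝ) * (2 ^ T * ((1 + q * (1 / 2)) ^ a * (1 + q) ^ (p * a - a)))
      ≤ 2 ^ p * (2 ^ T * (((1 + q) ^ a * (1 / 2) ^ (p + T + f)) * (1 + q) ^ (p * a - a))) := by
        refine mul_le_mul h9 ?_ (by positivity) (by positivity)
        refine mul_le_mul_of_nonneg_left ?_ (by positivity)
        refine mul_le_mul_of_nonneg_right ?_ (by positivity)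
        refine h3.trans ?_
        exact mul_le_mul_of_nonneg_left h6 (by positivity)
    _ = ((2 : ℝ) ^ p * (1 / 2) ^ p) * ((2 : ℝ) ^ T * (1 / 2) ^ T) *
          ((1 + q) ^ a * (1 + q) ^ (p * a - a)) * (1 / 2) ^ f := by
        rw [pow_add, pow_add]; ring
    _ = (1 + q) ^ (p * a) * (1 / 2) ^ f := by rw [h10, h11, ← h8]; ring

theorem pointwise {p a f u T : ℕ} {q y : ℝ} (hq0 : 0 < q) (hy0 : 0 < y) (hy1 : y ≤ 1)
    (hT : T = 2 ^ p * u + p + f) (A : Finset (Fin p × Fin a)) : q ^ A.card *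
        (if ∀ i : Fin p, 2 ^ p * u + p + f ≤ (univ.filter fun k : Fin a => (i, k) ∈ A).card
          then (1 / 2 : ℝ) ^ f +
            ((A.powerset.filter fun F => F.card < f).card : ℝ) * (1 / 2) ^ u
          else 1) ≤
      (1 / 2 : ℝ) ^ f * q ^ A.card + (y⁻¹ ^ f * (1 / 2) ^ u) * (q * (1 + y)) ^ A.card +
        ∑ i : Fin p, 2 ^ T * (q ^ A.card *
          (1 / 2) ^ (((univ : Finset (Fin a)).image fun k => (i, k)) ∩ A).card) := by
  have hqA : 0 < q ^ A.card := by positivity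
  have hsum0 : 0 ≤ ∑ i : Fin p, 2 ^ T * (q ^ A.card *
        (1 / 2 : ℝ) ^ (((univ : Finset (Fin a)).image fun k => (i, k)) ∩ A).card) :=
    Finset.sum_nonneg fun i _ => by positivity
  split_ifs with hgood
  · have h1 := card_small_le hy0 hy1 f A
    have h2 : ((A.powerset.filter fun F => F.card < f).card : ℝ) * (1 / 2) ^ u ≤
        (y⁻¹ ^ f * (1 + y) ^ A.card) * (1 / 2) ^ u :=
      mul_le_mul_of_nonneg_right h1 (by positivity)
    have h3 : q ^ A.card * ((y⁻¹ ^ f * (1 + y) ^ A.card) * (1 / 2) ^ u) =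
        (y⁻¹ ^ f * (1 / 2) ^ u) * (q * (1 + y)) ^ A.card := by
      rw [mul_pow]; ring
    have h4 := mul_le_mul_of_nonneg_left h2 hqA.le
    rw [h3] at h4
    rw [mul_add]
    linarith
  · push Not at hgood
    obtain ⟨i, hi⟩ := hgood
    rw [← hT, ← card_row_inter] at hi
    have h5 : (1 : ℝ) ≤ 2 ^ T *
        (1 / 2) ^ (((univ : Finset (Fin a)).image fun k => (i, k)) ∩ A).card := by
      have h6 : (1 / 2 : ℝ) ^ T ≤
          (1 / 2) ^ (((univ : Finset (Fin a)).image fun k => (i, k)) ∩ A).card :=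
        pow_le_pow_of_le_one (by norm_num) (by norm_num) hi.le
      have h7 : (2 : ℝ) ^ T * (1 / 2) ^ T = 1 := by rw [← mul_pow]; norm_num
      calc (1 : ℝ) = 2 ^ T * (1 / 2) ^ T := h7.symm
        _ ≤ _ := mul_le_mul_of_nonneg_left h6 (by positivity)
    have h8 : q ^ A.card * 1 ≤ ∑ i : Fin p, 2 ^ T * (q ^ A.card *
        (1 / 2 : ℝ) ^ (((univ : Finset (Fin a)).image fun k => (i, k)) ∩ A).card) := by
      calc q ^ A.card * 1 ≤ q ^ A.card * (2 ^ T *
            (1 / 2) ^ (((univ : Finset (Fin a)).image fun k => (i, k)) ∩ A).card) :=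
            mul_le_mul_of_nonneg_left h5 hqA.le
        _ = 2 ^ T * (q ^ A.card *
            (1 / 2 : ℝ) ^ (((univ : Finset (Fin a)).image fun k => (i, k)) ∩ A).card) := by ring
        _ ≤ _ := Finset.single_le_sum (f := fun i : Fin p => 2 ^ T * (q ^ A.card *
            (1 / 2 : ℝ) ^ (((univ : Finset (Fin a)).image fun k => (i, k)) ∩ A).card))
            (fun i _ => by positivity) (Finset.mem_univ i)
    have h9 : 0 ≤ (1 / 2 : ℝ) ^ f * q ^ A.card := by positivity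
    have h10 : 0 ≤ (y⁻¹ ^ f * (1 / 2) ^ u) * (q * (1 + y)) ^ A.card := by positivity
    linarith

theorem total {p a f u T : ℕ} {q y : ℝ} (hq0 : 0 < q) (hy0 : 0 < y) (hy1 : y ≤ 1)
    (hT : T = 2 ^ p * u + p + f) :
    ∑ A : Finset (Fin p × Fin a), q ^ A.card *
        (if ∀ i : Fin p, 2 ^ p * u + p + f ≤ (univ.filter fun k : Fin a => (i, k) ∈ A).card
          then (1 / 2 : ℝ) ^ f +
            ((A.powerset.filter fun F => F.card < f).card : ℝ) * (1 / 2) ^ u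
          else 1) ≤
      (1 / 2 : ℝ) ^ f * (1 + q) ^ (p * a) +
        (y⁻¹ ^ f * (1 / 2) ^ u) * (1 + q * (1 + y)) ^ (p * a) +
        p * (2 ^ T * ((1 + q * (1 / 2)) ^ a * (1 + q) ^ (p * a - a))) := by
  have hN : Fintype.card (Fin p × Fin a) = p * a := by simp
  refine (Finset.sum_le_sum fun A (_ : A ∈ (univ : Finset (Finset (Fin p × Fin a)))) =>
    pointwise hq0 hy0 hy1 hT A).trans ?_
  rw [Finset.sum_add_distrib, Finset.sum_add_distrib, ← Finset.mul_sum, ← Finset.mul_sum,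
    sum_pow_card, sum_pow_card, Finset.sum_comm]
  have hinner : ∀ i : Fin p, ∑ A : Finset (Fin p × Fin a), 2 ^ T * (q ^ A.card *
      (1 / 2 : ℝ) ^ (((univ : Finset (Fin a)).image fun k => (i, k)) ∩ A).card) =
      2 ^ T * ((1 + q * (1 / 2)) ^ a * (1 + q) ^ (p * a - a)) := by
    intro i
    rw [← Finset.mul_sum, sum_pow_inter, card_row, hN]
  rw [Finset.sum_congr rfl fun i _ => hinner i, Finset.sum_const, Finset.card_univ,
    Fintype.card_fin, nsmul_eq_mul, hN]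

theorem weights : ∃ K : ℕ, ∀ p R t a : ℕ, 2 ≤ p → 1 ≤ R → 1 ≤ t → a = K * R * p * 2 ^ p * t →
    ∃ (f u : ℕ) (q : ℝ), 0 < q ∧ (R : ℝ) * q ≤ 1 / 2 ∧
      2 * ∑ A : Finset (Fin p × Fin a), q ^ A.card *
        (if ∀ i : Fin p, 2 ^ p * u + p + f ≤ (univ.filter fun k : Fin a => (i, k) ∈ A).card
          then (1 / 2 : ℝ) ^ f + ((A.powerset.filter fun F => F.card < f).card : ℝ) * (1 / 2) ^ u
          else 1) ≤ (1 + q) ^ (p * a) * (1 / 2 : ℝ) ^ (t + 3) := by
  refine ⟨8192, ?_⟩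
  intro p R t a hp hR ht ha
  have hR' : (1 : ℝ) ≤ R := by exact_mod_cast hR
  have ht' : (1 : ℝ) ≤ t := by exact_mod_cast ht
  have hp' : (2 : ℝ) ≤ p := by exact_mod_cast hp
  obtain ⟨q, hq⟩ : ∃ q : ℝ, q = 1 / (2 * R) := ⟨_, rfl⟩
  obtain ⟨f, hf⟩ : ∃ f : ℕ, f = t + 10 := ⟨_, rfl⟩
  obtain ⟨w, hw⟩ : ∃ w : ℕ, w = 3 * p + 15 := ⟨_, rfl⟩
  obtain ⟨T, hT⟩ : ∃ T : ℕ, T = 2 ^ p * (w * f) + p + f := ⟨_, rfl⟩
  obtain ⟨P, hP⟩ : ∃ P : ℕ, P = 2 ^ p := ⟨_, rfl⟩
  have hPp : p ≤ P := by rw [hP]; exact le_of_lt Nat.lt_two_pow_self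
  have hP1 : 1 ≤ P := by omega
  have hP1' : (1 : ℝ) ≤ P := by exact_mod_cast hP1
  have hq0 : 0 < q := by rw [hq]; positivity
  have hq1 : q ≤ 1 / 2 := by
    rw [hq, div_le_div_iff₀ (by positivity) (by norm_num)]
    linarith
  have hRq : (R : ℝ) * q = 1 / 2 := by
    rw [hq]; field_simp
  have haq : (a : ℝ) * q = 4096 * p * P * t := by
    rw [ha, ← hP]
    push_cast
    calc (8192 * (R : ℝ) * p * P * t) * q = 8192 * p * P * t * (R * q) := by ring
      _ = 4096 * p * P * t := by rw [hRq]; ring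
  refine ⟨f, w * f, q, hq0, hRq.le, ?_⟩
  obtain ⟨X, hX⟩ : ∃ X : ℝ, X = p * (a * q) := ⟨_, rfl⟩
  have hX2 : X = 4096 * (p * p * P) * t := by rw [hX, haq]; ring
  have hf' : (f : ℝ) = t + 10 := by rw [hf]; push_cast; ring
  have hppP : (1 : ℝ) ≤ p * p * P := by
    have h1 : (1 : ℝ) ≤ p * p := by nlinarith
    nlinarith
  have hX0 : 0 < X := by rw [hX2]; positivity
  have hfX : (f : ℝ) ≤ X := by
    rw [hX2, hf']
    nlinarith
  have hf0 : (0 : ℝ) < f := by rw [hf']; positivity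
  obtain ⟨y, hy⟩ : ∃ y : ℝ, y = f / X := ⟨_, rfl⟩
  have hy0 : 0 < y := by rw [hy]; positivity
  have hy1 : y ≤ 1 := by rw [hy]; exact (div_le_one hX0).2 hfX
  have hyinv : y⁻¹ ≤ 4096 * (p * p * P) := by
    rw [hy, inv_div, div_le_iff₀ hf0, hX2, hf']
    have : (0 : ℝ) ≤ 4096 * (p * p * P) := by positivity
    nlinarith
  have b2 := bound_two (p := p) (a := a) (f := f) (w := w) hq0 hX hX0 hy hy0 hyinv
    (bound_w hPp hP hw)
  have b3 := bound_three (a := a) (f := f) (t := t) (T := T) hp hq0 hq1 hPp hP haq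
    (bound_nat hp ht hP1 (by rw [hT, hP]) hf hw)
  have htot := total (p := p) (a := a) (f := f) (u := w * f) (T := T) hq0 hy0 hy1 hT
  have hQ : (0 : ℝ) < (1 + q) ^ (p * a) := by positivity
  have hfin : (1 / 2 : ℝ) ^ f * 6 ≤ (1 / 2) ^ (t + 3) := by
    have : (1 / 2 : ℝ) ^ f = (1 / 2) ^ (t + 3) * (1 / 2) ^ 7 := by
      rw [hf, ← pow_add]
    rw [this]
    have h0 : (0 : ℝ) < (1 / 2) ^ (t + 3) := by positivity
    nlinarith
  have hlast : (1 + q) ^ (p * a) * ((1 / 2 : ℝ) ^ f * 6) ≤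
      (1 + q) ^ (p * a) * (1 / 2) ^ (t + 3) := mul_le_mul_of_nonneg_left hfin hQ.le
  linarith

end Vale.Agent.P336.Cyl.H236
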